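import Vale.Agent.P232.Bdl.B2

open MeasureTheory

namespace Vale.Agent.Results.P232.Classification

open Vale.Agent.P232

theorem result :
    (∀ V : ℝ, 0 < V → V < 1 → profile 3 V = ENNReal.ofReal (J V)) ∧
    (∀ E : Set (Fin 3 → ℝ), MeasurableSet E → IsPeriodic E → 0 < vol E → vol E < 1 →
      (perimeter E = profile 3 (vol E) ↔
        (vol E ≤ 1 / 2 ∧ ∃ B, Model (vol E) B ∧ E =ᵐ[volume] B) ∨
        (1 / 2 ≤ vol E ∧ ∃ B, Model (1 - vol E) B ∧ E =ᵐ[volume] (Bᶜ : Set (Fin 3 → ℝ))))) ∧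
    (∀ (v : ℝ) (B : Set (Fin 3 → ℝ)), 0 < v → v ≤ 1 / 2 → Model v B →
      MeasurableSet B ∧ IsPeriodic B ∧ vol B = v ∧ perimeter B = ENNReal.ofReal (J v)) :=
  classification_of_mid midStatement_holds

end Vale.Agent.Results.P232.Classification
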